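import Vale.Agent.P011.D4X.H67.KCb
import Vale.Agent.P011.D4X.H62.KC
import Vale.Agent.P011.D4X.H64.KCr
import Vale.Agent.P011.D4X.H657.ZT
import Vale.Agent.P011.D4X.H691.Na
import Vale.Agent.P011.D4X.H553.Tran

/-!
Block D4X: the change of the quadratic field, one existence theorem.
-/

open NumberField

namespace Vale.Agent.P011.D4X

open Vale.Agent.P011.MPQ Vale.Agent.P011.D4 Vale.Agent.P011.D4.Oct Vale.Agent.P011.E6

namespace KCx

section quat

variable {F : Type} [Field F] {a b : Fˣ}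

theorem nrd_of_sq {w : Qt a b} (h0 : w.re = 0) {D : F} (h : w * w = D • 1) : nrd w = -D := by
  have h1 := congrArg QuaternionAlgebra.re h
  have h2 : (w * w).re = -nrd w := by
    simp [nrd, h0]
    ring
  rw [h2] at h1
  have h3 : (D • (1 : Qt a b)).re = D := by simp
  rw [h3] at h1
  rw [← h1, neg_neg]

theorem nrd_tor {w : Qt a b} (h0 : w.re = 0) {D : F} (h : w * w = D • 1) (r r' : F) :
    nrd (r • 1 + r' • w) = r ^ 2 - D * r' ^ 2 := by
  have h1 := nrd_of_sq h0 h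
  have h2 : nrd (r • 1 + r' • w) = r ^ 2 + r' ^ 2 * nrd w := by
    simp [nrd, h0]
    ring
  rw [h2, h1]
  ring

theorem nrd_i (r r' : F) : nrd (r • 1 + r' • (⟨0, 1, 0, 0⟩ : Qt a b)) = r ^ 2 - a * r' ^ 2 := by
  have h : (⟨0, 1, 0, 0⟩ : Qt a b) * ⟨0, 1, 0, 0⟩ = (a : F) • 1 := by
    ext
    · simp
    · simp
    · simp
    · simp
  exact nrd_tor rfl h r r'

/-- An anticommuting quaternion. -/
theorem exists_anti {w : Qt a b} (h0 : w.re = 0) :
    ∃ v : Qt a b, v.re = 0 ∧ v ≠ 0 ∧ v * w = -(w * v) := by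
  have ha : (a : F) ≠ 0 := a.ne_zero
  have hb : (b : F) ≠ 0 := b.ne_zero
  -- a pure quaternion orthogonal to `w`
  obtain ⟨v, hv0, hv, hvw⟩ : ∃ v : Qt a b, v.re = 0 ∧ v ≠ 0 ∧
      -(a : F) * w.imI * v.imI - b * w.imJ * v.imJ + a * b * w.imK * v.imK = 0 := by
    by_cases hI : w.imI = 0
    · refine ⟨⟨0, 1, 0, 0⟩, rfl, fun h => ?_, ?_⟩
      · have := congrArg QuaternionAlgebra.imI h
        exact one_ne_zero this
      · change -(a : F) * w.imI * 1 - b * w.imJ * 0 + a * b * w.imK * 0 = 0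
        rw [hI]
        ring
    · refine ⟨⟨0, -(b * w.imJ), a * w.imI, 0⟩, rfl, fun h => ?_, ?_⟩
      · have := congrArg QuaternionAlgebra.imJ h
        exact mul_ne_zero ha hI this
      · change -(a : F) * w.imI * (-(b * w.imJ)) - b * w.imJ * (a * w.imI) +
          a * b * w.imK * 0 = 0
        ring
  refine ⟨v, hv0, hv, ?_⟩
  ext
  · simp [h0, hv0]
    linear_combination -2 * hvw
  · simp [h0, hv0]
    ring
  · simp [h0, hv0]
    ring
  · simp [h0, hv0]
    ring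

end quat

section bc

variable {k L F O : Type} [Field k] [Field L] [Field F] [Field O] [Algebra k L] [Algebra k F]
  [Algebra L F] [Algebra k O] [Algebra L O] [Algebra F O] [IsScalarTower k L F]
  [IsScalarTower k F O] [IsScalarTower L F O] {a b c : kˣ}

/-- Base change of the similitudes `zFun`. -/
theorem zFun_oin {r : F ≃ₐ[k] F} {r' : O ≃ₐ[k] O}
    (hr : ∀ t : F, r' (algebraMap F O t) = algebraMap F O (r t)) (X w : Qt (up F a) (up F b))
    (t : F) (x : OctL F a b c) :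
    zFun r' (H62.qin O X) (H62.qin O w) (algebraMap F O t) (H62.oin O x) =
      H62.oin O (zFun r X w t x) := by
  ext1
  · rw [fst_zFun, H62.oin_fst, H62.oin_fst, fst_zFun, H62.qmap_qin hr, H62.qmap_qin hr,
      ← H62.qin_star, ← H62.qin_mul, ← H62.qin_mul]
  · rw [snd_zFun, H62.oin_snd, H62.oin_snd, snd_zFun, H62.qmap_qin hr, ← H62.qin_star,
      ← H62.qin_mul, ← H62.qin_mul, ← H62.qin_smul]

theorem nrd_qin (x : Qt (up F a) (up F b)) :
    nrd (H62.qin O x) = algebraMap F O (nrd x) := by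
  have ha : algebraMap F O ((up F a : Fˣ) : F) = ((up O a : Oˣ) : O) := H62.up_up a
  have hb : algebraMap F O ((up F b : Fˣ) : F) = ((up O b : Oˣ) : O) := H62.up_up b
  simp only [nrd, H62.re_qin, H62.imI_qin, H62.imJ_qin, H62.imK_qin, map_add, map_sub, map_mul,
    map_pow]
  rw [ha, hb]

theorem qin_one : H62.qin O (1 : Qt (up F a) (up F b)) = 1 := by
  apply QuaternionAlgebra.ext
  · exact map_one _
  · exact map_zero _
  · exact map_zero _
  · exact map_zero _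

theorem qin_qup (x : Qt a b) : H62.qin O (qup F x) = qup O x := by
  apply QuaternionAlgebra.ext <;> exact (IsScalarTower.algebraMap_apply k F O _).symm

end bc

section psi

variable {k L E : Type} [Field k] [Field L] [Field E] [Algebra k L] [Algebra k E] [Algebra L E]
  [IsScalarTower k L E] {α : E} {a b c : kˣ} {q : Lˣ}

theorem psiL_add (x y : Qt (up L a) (q * up L b)) :
    (psiL α q (x + y) : Qt (up E a) (up E b)) = psiL α q x + psiL α q y := by
  apply QuaternionAlgebra.ext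
  · exact map_add _ _ _
  · exact map_add _ _ _
  · simp only [psiL, QuaternionAlgebra.imJ_add, QuaternionAlgebra.imK_add, map_add]
    ring
  · simp only [psiL, QuaternionAlgebra.imJ_add, QuaternionAlgebra.imK_add, map_add]
    ring

theorem psiL_smul (t : L) (x : Qt (up L a) (q * up L b)) :
    (psiL α q (t • x) : Qt (up E a) (up E b)) = algebraMap L E t • psiL α q x := by
  apply QuaternionAlgebra.ext
  · exact map_mul _ _ _
  · exact map_mul _ _ _
  · simp only [psiL, QuaternionAlgebra.imJ_smul, QuaternionAlgebra.imK_smul, smul_eq_mul, map_mul]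
    ring
  · simp only [psiL, QuaternionAlgebra.imJ_smul, QuaternionAlgebra.imK_smul, smul_eq_mul, map_mul]
    ring

theorem psiL_one : (psiL α q (1 : Qt (up L a) (q * up L b)) : Qt (up E a) (up E b)) = 1 := by
  apply QuaternionAlgebra.ext
  · exact map_one _
  · exact map_zero _
  · simp [psiL]
  · simp [psiL]

theorem psiL_i : (psiL α q (⟨0, 1, 0, 0⟩ : Qt (up L a) (q * up L b)) : Qt (up E a) (up E b)) =
    ⟨0, 1, 0, 0⟩ := by
  apply QuaternionAlgebra.ext
  · exact map_zero _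
  · exact map_one _
  · simp [psiL]
  · simp [psiL]

theorem zF_eq {ρ : E ≃ₐ[k] E} {ρL : L ≃ₐ[k] L} (x0 : Qt a b) (x : Qt (up L a) (q * up L b))
    (s : kˣ) (y : OctL E a b c) : zF ρ ρL α q x0 x s y = zFun ρ (psiL α q x) (qup E x0)
      (algebraMap L E (nrd x * ρL (ρL (nrd x))) / algebraMap k E (s : k)) y := rfl

end psi

end KCx

open KCx

section kcx

variable {k L E E1 O : Type} [Field k] [Field L] [Field E] [Field E1] [Field O] [Algebra k L]
  [Algebra k E] [Algebra L E] [Algebra k E1] [Algebra L E1] [Algebra k O] [Algebra L O]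
  [Algebra E O] [Algebra E1 O] [IsScalarTower k L E] [IsScalarTower k L E1]
  [IsScalarTower k L O]
  [IsScalarTower k E O] [IsScalarTower k E1 O] [IsScalarTower L E O] [IsScalarTower L E1 O]
  {a b c a1 b1 c1 : kˣ} {q : Lˣ}

/-- The properties of the change of the quadratic field to `k(√D)`. -/
structure KCX (ρ σ : E ≃ₐ[k] E) (ρL : L ≃ₐ[k] L) (α : E) (D : k) (w0 : Qt a b)
    (w : Qt (up L a) (q * up L b)) (ρ1 σ1 : E1 ≃ₐ[k] E1) (α1 : E1) (ρ' σ' τ' : O ≃ₐ[k] O)
    (q1 : Lˣ) (u : OctL O a1 b1 c1 ≃ₗ[O] OctL O a b c)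
    (φ : AT ρ σ α a b c q ≃* AT ρ1 σ1 α1 a1 b1 c1 q1) : Prop where
  T : Tow ρ σ ρL D ρ1 σ1 α1 ρ' σ' τ'
  H1 : Hy ρ1 σ1 ρL α1 a1 b1 c1 q1
  ha1 : (a1 : k) = D
  K : H62.KCH ρ σ ρ1 σ1 ρ' σ' τ' α α1 q q1 u
  rel : ∀ z : AT ρ σ α a b c q, H62.Rel u z.1 (φ z).1
  eqv : ∀ (z : AT ρ σ α a b c q) (Z : OctL O a b c ≃ₗ[O] OctL O a b c), H62.IsBc O z.1 Z →
    ∀ x : OctL E1 a1 b1 c1, u (H62.oin O ((φ z).1 x)) = Z (u (H62.oin O x))
  kp : ∀ (z : AT ρ σ α a b c q) (κ : Lˣ), IsKap ρ z.1 κ ↔ IsKap ρ1 (φ z).1 κ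
  st0 : ∀ z : AT ρ σ α a b c q, z ∈ stab0 ρ σ α a b c q ↔ φ z ∈ stab0 ρ1 σ1 α1 a1 b1 c1 q1
  zf : ∀ (z : AT ρ σ α a b c q) (l r r' : L) (r0 r0' : k) (s : kˣ),
    (∀ y, z.1 y = algebraMap L E l • zF ρ ρL α q (r0 • 1 + r0' • w0) (r • 1 + r' • w) s y) →
      ∀ y, (φ z).1 y = algebraMap L E1 l • zF ρ1 ρL α1 q1 (r0 • 1 + r0' • ⟨0, 1, 0, 0⟩)
        (r • 1 + r' • ⟨0, 1, 0, 0⟩) s y
  /-- the change of coordinates carries the tori of the standard directions to those of `w0`,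
  `w` -/
  uz : ∀ (r r' r0 r0' g : O) (x : OctL O a1 b1 c1),
    u (zFun ρ' (r • 1 + r' • ⟨0, 1, 0, 0⟩) (r0 • 1 + r0' • ⟨0, 1, 0, 0⟩) g x) =
      zFun ρ' (r • 1 + r' • H62.qin O (psiL α q w : Qt (up E a) (up E b)))
        (r0 • 1 + r0' • qup O w0) g (u x)
  /-- the relation of the two parameters -/
  lv : ∃ lam v : O, lam ≠ 0 ∧ v ≠ 0 ∧ lam * σ' lam = algebraMap L O (q : L) ∧
    τ' lam * σ' v = lam * v ∧ algebraMap L O (q1 : L) = v * τ' v

variable {ρ σ : E ≃ₐ[k] E} {ρL : L ≃ₐ[k] L} {α : E} {D : k} {w0 : Qt a b}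
  {w : Qt (up L a) (q * up L b)} {ρ1 σ1 : E1 ≃ₐ[k] E1} {α1 : E1} {ρ' σ' τ' : O ≃ₐ[k] O}
  {q1 : Lˣ} {u : OctL O a1 b1 c1 ≃ₗ[O] OctL O a b c}
  {φ : AT ρ σ α a b c q ≃* AT ρ1 σ1 α1 a1 b1 c1 q1}

/-- The formula on the tori. -/
theorem KCx.zf_of (T : Tow ρ σ ρL D ρ1 σ1 α1 ρ' σ' τ') (ha1 : (a1 : k) = D)
    (hw0 : w.re = 0) (hw : w * w = algebraMap k L D • (1 : Qt (up L a) (q * up L b)))
    (hu : ∀ (r r' r0 r0' g : O) (x : OctL O a1 b1 c1),
        u (zFun ρ' (r • 1 + r' • ⟨0, 1, 0, 0⟩) (r0 • 1 + r0' • ⟨0, 1, 0, 0⟩) g x) =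
          zFun ρ' (r • 1 + r' • H62.qin O (psiL α q w : Qt (up E a) (up E b)))
            (r0 • 1 + r0' • qup O w0) g (u x))
    (eqv : ∀ (z : AT ρ σ α a b c q) (Z : OctL O a b c ≃ₗ[O] OctL O a b c), H62.IsBc O z.1 Z →
      ∀ x : OctL E1 a1 b1 c1, u (H62.oin O ((φ z).1 x)) = Z (u (H62.oin O x)))
    (z : AT ρ σ α a b c q) (l r r' : L) (r0 r0' : k) (s : kˣ)
    (hz : ∀ y, z.1 y = algebraMap L E l • zF ρ ρL α q (r0 • 1 + r0' • w0) (r • 1 + r' • w) s y)
    (y : OctL E1 a1 b1 c1) : (φ z).1 y = algebraMap L E1 l •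
      zF ρ1 ρL α1 q1 (r0 • 1 + r0' • ⟨0, 1, 0, 0⟩) (r • 1 + r' • ⟨0, 1, 0, 0⟩) s y := by
  -- the norms
  have hn : nrd (r • 1 + r' • w) = nrd (r • 1 + r' • (⟨0, 1, 0, 0⟩ :
      Qt (up L a1) (q1 * up L b1))) := by
    rw [nrd_tor hw0 hw, nrd_i, ← ha1]
    rfl
  obtain ⟨n, hn'⟩ : ∃ n, n = nrd (r • 1 + r' • w) := ⟨_, rfl⟩
  simp only [zF_eq, ← hn'] at hz
  rw [zF_eq, ← hn, ← hn']
  obtain ⟨Z, hZ⟩ := H62.exists_bc (O := O) z.1
  set g : E := algebraMap L E (n * ρL (ρL n)) / algebraMap k E (s : k) with hg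
  set g1 : E1 := algebraMap L E1 (n * ρL (ρL n)) / algebraMap k E1 (s : k) with hg1
  have hgg : algebraMap E O g = algebraMap E1 O g1 := by
    rw [hg, hg1, map_div₀, map_div₀, ← IsScalarTower.algebraMap_apply L E O,
      ← IsScalarTower.algebraMap_apply L E1 O, ← IsScalarTower.algebraMap_apply k E O,
      ← IsScalarTower.algebraMap_apply k E1 O]
  have hll : algebraMap E O (algebraMap L E l) = algebraMap E1 O (algebraMap L E1 l) := by
    rw [← IsScalarTower.algebraMap_apply L E O, ← IsScalarTower.algebraMap_apply L E1 O]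
  have hq1 : ∀ x0 : Qt a b, H62.qin O (qup E x0) = qup O x0 := fun x0 => qin_qup x0
  have hZf : ∀ v : OctL O a b c, Z v = algebraMap E O (algebraMap L E l) •
      zFun ρ' (algebraMap L O r • 1 + algebraMap L O r' •
        H62.qin O (psiL α q w : Qt (up E a) (up E b)))
        (algebraMap k O r0 • 1 + algebraMap k O r0' • qup O w0) (algebraMap E O g) v := by
    intro v
    have hX : H62.qin O (psiL α q (r • 1 + r' • w) : Qt (up E a) (up E b)) =
        algebraMap L O r • 1 + algebraMap L O r' •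
          H62.qin O (psiL α q w : Qt (up E a) (up E b)) := by
      rw [psiL_add, psiL_smul, psiL_smul, psiL_one, H62.qin_add, H62.qin_smul, H62.qin_smul,
        qin_one, ← IsScalarTower.algebraMap_apply L E O, ← IsScalarTower.algebraMap_apply L E O]
    have hW : H62.qin O (qup E (r0 • 1 + r0' • w0)) =
        algebraMap k O r0 • 1 + algebraMap k O r0' • qup O w0 := by
      rw [qin_qup, qup_add, qup_smul, qup_smul, qup_one]
    rw [← hX, ← hW]
    refine H62.ext_oin (F := E) (f := fun v => Z v)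
      (g := fun v => algebraMap E O (algebraMap L E l) •
        zFun ρ' (H62.qin O (psiL α q (r • 1 + r' • w) : Qt (up E a) (up E b)))
          (H62.qin O (qup E (r0 • 1 + r0' • w0))) (algebraMap E O g) v)
      (fun x y => map_add Z x y) (fun x y => ?_) (map_zero Z) ?_ (fun t x => ?_) v
    · rw [zFun_add, smul_add]
    · have h := zFun_smul (ρ := ρ') (H62.qin O (psiL α q (r • 1 + r' • w) :
        Qt (up E a) (up E b))) (H62.qin O (qup E (r0 • 1 + r0' • w0))) (algebraMap E O g) 0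
        (0 : OctL O a b c)
      rw [zero_smul, zero_smul] at h
      change _ • zFun ρ' _ _ _ 0 = 0
      rw [h, smul_zero]
    · change Z (t • H62.oin O x) = _ • zFun ρ' _ _ _ (t • H62.oin O x)
      rw [map_smul, hZ, hz, H62.oin_smul, zFun_smul, zFun_oin T.ρE, smul_comm t]
  apply H62.oin_inj (O := O)
  apply u.injective
  rw [eqv z Z hZ, hZf, ← hu, ← map_smul, hll, hgg, H62.oin_smul]
  congr 2
  have hX1 : (algebraMap L O r • 1 + algebraMap L O r' • ⟨0, 1, 0, 0⟩ :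
      Qt (up O a1) (up O b1)) =
      H62.qin O (psiL α1 q1 (r • 1 + r' • ⟨0, 1, 0, 0⟩) : Qt (up E1 a1) (up E1 b1)) := by
    rw [psiL_add, psiL_smul, psiL_smul, psiL_one, psiL_i, H62.qin_add, H62.qin_smul,
      H62.qin_smul, qin_one, ← IsScalarTower.algebraMap_apply L E1 O,
      ← IsScalarTower.algebraMap_apply L E1 O]
    congr 2
    apply QuaternionAlgebra.ext
    · exact (map_zero _).symm
    · exact (map_one _).symm
    · exact (map_zero _).symm
    · exact (map_zero _).symm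
  have hW1 : (algebraMap k O r0 • 1 + algebraMap k O r0' • ⟨0, 1, 0, 0⟩ :
      Qt (up O a1) (up O b1)) =
      H62.qin O (qup E1 (r0 • 1 + r0' • ⟨0, 1, 0, 0⟩)) := by
    rw [qin_qup, qup_add, qup_smul, qup_smul, qup_one]
    congr 2
    apply QuaternionAlgebra.ext
    · exact (map_zero _).symm
    · exact (map_one _).symm
    · exact (map_zero _).symm
    · exact (map_zero _).symm
  rw [hX1, hW1, zFun_oin T.ρE1]

end kcx

section main

variable {k L E : Type} [Field k] [NumberField k] [Field L] [NumberField L] [Field E]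
  [Algebra k L] [Algebra k E] [Algebra L E] [IsScalarTower k L E]
  {ρ σ : E ≃ₐ[k] E} {ρL : L ≃ₐ[k] L} {α : E} {a b c : kˣ} {q : Lˣ}

omit [NumberField k] in
theorem KCx.numE (H : Hy ρ σ ρL α a b c q) : NumberField E := by
  have : FiniteDimensional L E := Module.finite_of_finrank_eq_succ H.h2
  exact NumberField.of_module_finite L E

/-- **KC.** The change of the quadratic field. -/
theorem exists_kcx (H : Hy ρ σ ρL α a b c q) {D : k} (hD0 : D ≠ 0)
    (hsgn : ∀ τ : k →+* ℝ, τ D < 0 → τ (a : k) < 0) (hD : ∀ x : E, x * x ≠ algebraMap k E D)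
    {w0 : Qt a b} (hw0 : w0.re = 0) (hw0' : w0 * w0 = D • 1)
    {w : Qt (up L a) (q * up L b)} (hw : w.re = 0) (hw' : w * w = algebraMap k L D • 1) :
    ∃ (E1 O : Type) (_ : Field E1) (_ : Field O) (_ : Algebra k E1) (_ : Algebra L E1)
      (_ : Algebra k O) (_ : Algebra L O) (_ : Algebra E O) (_ : Algebra E1 O)
      (_ : IsScalarTower k L E1) (_ : IsScalarTower k E O) (_ : IsScalarTower k E1 O)
      (_ : IsScalarTower L E O) (_ : IsScalarTower L E1 O) (_ : IsScalarTower k L O)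
      (_ : NumberField E1) (_ : NumberField O) (ρ1 σ1 : E1 ≃ₐ[k] E1) (α1 : E1)
      (ρ' σ' τ' : O ≃ₐ[k] O) (a1 b1 c1 : kˣ) (q1 : Lˣ)
      (u : OctL O a1 b1 c1 ≃ₗ[O] OctL O a b c)
      (φ : AT ρ σ α a b c q ≃* AT ρ1 σ1 α1 a1 b1 c1 q1),
      KCX ρ σ ρL α D w0 w ρ1 σ1 α1 ρ' σ' τ' q1 u φ := by
  have := KCx.numE H
  obtain ⟨E1, O, _, _, _, _, _, _, _, _, _, _, _, _, _, _, _, _, ρ1, σ1, α1, ρ', σ', τ', T⟩ :=
    exists_tow H hD
  obtain ⟨a1, ha1⟩ : ∃ a1 : kˣ, (a1 : k) = D := ⟨Units.mk0 D hD0, rfl⟩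
  obtain ⟨j1, hj0, hj1, hj⟩ := exists_anti (w := w0) hw0
  have hnj : nrd j1 ≠ 0 := fun h => hj1 (H.hdiv.aniso j1 h)
  obtain ⟨b1, hb1⟩ : ∃ b1 : kˣ, (b1 : k) = -nrd j1 := ⟨Units.mk0 _ (neg_ne_zero.2 hnj), rfl⟩
  have hρq : ∀ t : L, ρ' (algebraMap L O t) = algebraMap L O (ρL t) := fun t => by
    rw [IsScalarTower.algebraMap_apply L E O, T.ρE, H.ρL', ← IsScalarTower.algebraMap_apply L E O]
  have hmq : mq a b (algebraMap E O α) (algebraMap L O (q : L)) =
      H62.qin O (mq a b α (algebraMap L E (q : L))) := by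
    rw [H62.qin_mq, ← IsScalarTower.algebraMap_apply L E O]
  obtain ⟨c1, q1O, u, e, f, s, t, he, hf, hs, ht, hN, hσq1, hτq1, hu1, hbil, hJ, hJ1, hut, huz,
      lam, v, hlam0, hv0, hlam, hrel, hq1v⟩ :=
    H67.kcb (ρ := ρ') (σ := σ') (τ := τ') (a := a) (b := b) (a1 := a1) (b1 := b1) T.ρ3 T.σ2 T.τ2
      T.σρ T.τρ T.στ (fun x h1 h2 h3 => T.exists_k H h1 h2 h3)
      (α := algebraMap E O α) (by rw [T.σE, H.σα, map_neg]) (by rw [T.ρE, H.ρα]) (T.τE α)
      (by rw [← map_mul, H.α2, ← IsScalarTower.algebraMap_apply])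
      (β := algebraMap E1 O α1) (T.σE1 α1) (by rw [T.τE1, T.σα1, map_neg]) (by rw [T.ρE1, T.ρα1])
      (by rw [← map_mul, T.α12, ha1, ← IsScalarTower.algebraMap_apply])
      (q := algebraMap L O (q : L))
      (by rw [H67.N3, hρq, hρq, ← map_mul, ← map_mul, H.hq, map_one])
      (by rw [IsScalarTower.algebraMap_apply L E O, T.σE, H.σL])
      (by rw [IsScalarTower.algebraMap_apply L E O, T.τE])
      (i1 := w0) (j1 := j1) hw0 hj0 (by rw [nrd_of_sq hw0 hw0', ha1]) (by rw [hb1, neg_neg]) hj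
      (p := H62.qin O (psiL α q w))
      (by
        rw [H62.re_qin]
        change algebraMap E O (algebraMap L E w.re) = 0
        rw [hw, map_zero, map_zero])
      (by
        rw [nrd_qin, nrd_psiL H, nrd_of_sq hw hw', ← map_mul, T.α12, map_neg, map_neg,
          ← IsScalarTower.algebraMap_apply, ← IsScalarTower.algebraMap_apply,
          ← IsScalarTower.algebraMap_apply])
      (by
        apply QuaternionAlgebra.ext
        · exact T.τE _
        · exact T.τE _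
        · exact T.τE _
        · exact T.τE _)
      (by
        rw [hmq, H62.qmap_qin T.σE, ← H62.qin_mul, ← H62.qin_mul, psiL_comm H])
      c
  obtain ⟨q1, hq1, H1⟩ := hy_new H (a1 := a1) (b1 := b1) (c1 := c1) (by rw [ha1]; exact T)
    (by rw [ha1]; exact hsgn) ⟨w0, hw0, by rw [ha1]; exact hw0'⟩ hN hσq1 hτq1 u hbil hJ hJ1
    hlam0 hv0 hlam hrel hq1v
  have K : H62.KCH ρ σ ρ1 σ1 ρ' σ' τ' α α1 q q1 u :=
    { hρ := T.ρE
      hσ := T.σE
      hτ := T.τE
      fτ := T.fixτ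
      hρ1 := T.ρE1
      hσ1 := T.σE1
      hτ1 := T.τE1
      fσ := T.fixσ
      hu := ⟨e, he, hu1⟩
      hJ := ⟨s, hs, hJ⟩
      hJ1 := ⟨t, ht, by rw [hq1]; exact hJ1⟩
      ht := hut }
  obtain ⟨φ, hrel', heqv, hkp, hst⟩ := K.exists_equiv
  exact ⟨E1, O, inferInstance, inferInstance, inferInstance, inferInstance, inferInstance,
    inferInstance, inferInstance, inferInstance, inferInstance, inferInstance, inferInstance,
    inferInstance, inferInstance, inferInstance, inferInstance, inferInstance, ρ1, σ1, α1, ρ', σ',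
    τ', a1, b1, c1, q1, u, φ, T, H1, ha1, K, hrel', heqv, hkp, hst,
    zf_of T ha1 hw hw' huz heqv, huz, lam, v, hlam0, hv0, hlam, hrel, by rw [hq1]; exact hq1v⟩

end main

end Vale.Agent.P011.D4X
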