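import Vale.Agent.P011.D4X.Defs
import Vale.Agent.P011.D4.Maps
import Vale.Agent.P011.D4.Orbit
import Vale.Agent.P011.E6.Herm

/-!
Block D4X: the elements of the group which fix the idempotent `e₊` come from automorphisms of the
octonion algebra which fix `i`; the involutions among them.
-/

namespace Vale.Agent.P011.D4X

open Vale.Agent.P011.MPQ Vale.Agent.P011.D4 Vale.Agent.P011.D4.Oct Vale.Agent.P011.E6

namespace TQ

section field

/-- The fixed field in an extension of prime degree. -/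
theorem fix_of_prime {F M : Type} [Field F] [Field M] [Algebra F M]
    (hp : (Module.finrank F M).Prime) {τ : M ≃ₐ[F] M} (hτ : τ ≠ 1) {t : M} (ht : τ t = t) :
    ∃ s : F, algebraMap F M s = t := by
  have : FiniteDimensional F M := Module.finite_of_finrank_pos hp.pos
  have hs : IsSimpleOrder (IntermediateField F M) :=
    IntermediateField.isSimpleOrder_of_finrank_prime F M hp
  have h1 : t ∈ IntermediateField.fixedField (Subgroup.zpowers τ) := by
    rw [IntermediateField.mem_fixedField_iff]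
    intro f hf
    obtain ⟨n, rfl⟩ := Subgroup.mem_zpowers_iff.mp hf
    have h2 : ∀ n : ℕ, (τ ^ n) t = t := by
      intro n
      induction n with
      | zero => rfl
      | succ n ih => rw [pow_succ, AlgEquiv.mul_apply, ht, ih]
    obtain ⟨m, rfl | rfl⟩ := n.eq_nat_or_neg
    · rw [zpow_natCast]; exact h2 m
    · rw [zpow_neg, zpow_natCast]
      conv_lhs => rw [← h2 m]
      exact (τ ^ m).symm_apply_apply t
  rcases eq_bot_or_eq_top (IntermediateField.fixedField (Subgroup.zpowers τ)) with h | h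
  · rw [h] at h1
    exact IntermediateField.mem_bot.mp h1
  · exfalso
    apply hτ
    apply AlgEquiv.ext
    intro x
    have h2 : x ∈ IntermediateField.fixedField (Subgroup.zpowers τ) := by
      rw [h]
      trivial
    rw [IntermediateField.mem_fixedField_iff] at h2
    exact h2 τ (Subgroup.mem_zpowers τ)

end field

section gt

variable {k L E : Type} [Field k] [Field L] [Field E] [Algebra k L] [Algebra k E] [Algebra L E]
  [IsScalarTower k L E] {ρ σ : E ≃ₐ[k] E} {ρL : L ≃ₐ[k] L} {α : E}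
  {a b c : kˣ} {q : Lˣ}

theorem alpha_ne (H : Hy ρ σ ρL α a b c q) : α ≠ 0 := by
  intro h
  have h1 := H.α2
  rw [h, mul_zero] at h1
  exact a.ne_zero ((map_eq_zero_iff _ (algebraMap k E).injective).1 h1.symm)

/-- The elements fixed by both automorphisms. -/
theorem fixE [NeZero (2 : E)] (H : Hy ρ σ ρL α a b c q) {x : E} (hσ : σ x = x)
    (hρ : ρ x = x) : ∃ s : k, algebraMap k E s = x := by
  have h2 : (2 : E) ≠ 0 := NeZero.ne 2
  set σ' : E ≃ₐ[L] E := AlgEquiv.ofRingEquiv (f := σ.toRingEquiv) H.σL with hσ'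
  have hs : ∀ y, σ' y = σ y := fun _ => rfl
  have h3 : σ' ≠ 1 := by
    intro h
    have h4 : σ' α = α := by rw [h]; rfl
    rw [hs, H.σα] at h4
    have h5 : (2 : E) * α = 0 := by linear_combination -h4
    exact (mul_ne_zero h2 (alpha_ne H)) h5
  obtain ⟨s, hs'⟩ := fix_of_prime (by rw [H.h2]; exact Nat.prime_two) h3 (t := x)
    (by rw [hs, hσ])
  have h4 : ρL s = s := by
    apply (algebraMap L E).injective
    rw [← H.ρL', hs', hρ]
  obtain ⟨r, hr⟩ := fix_of_prime (by rw [H.h3]; exact Nat.prime_three) H.ρ1 h4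
  exact ⟨r, by rw [IsScalarTower.algebraMap_apply k L E, hr, hs']⟩

/-- The quaternion `mq`, as an octonion. -/
theorem mq_oct [NeZero (2 : E)] (t : E) (hα : α ≠ 0) :
    (⟨mq a b α t, 0⟩ : OctL E a b c) = t • ep α + (1 - ep α) := by
  have h2 : (2 : E) ≠ 0 := NeZero.ne 2
  apply ext8
  · change (t + 1) / 2 = t * (1 / 2) + (1 - 1 / 2)
    field_simp
    ring
  · change (t - 1) / (2 * α) = t * (1 / (2 * α)) + (0 - 1 / (2 * α))
    field_simp
    ring
  · change (0 : E) = t * 0 + (0 - 0)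
    ring
  · change (0 : E) = t * 0 + (0 - 0)
    ring
  · change (0 : E) = t * 0 + (0 - 0)
    ring
  · change (0 : E) = t * 0 + (0 - 0)
    ring
  · change (0 : E) = t * 0 + (0 - 0)
    ring
  · change (0 : E) = t * 0 + (0 - 0)
    ring

theorem norm_mq [NeZero (2 : E)] (H : Hy ρ σ ρL α a b c q) (t : E) :
    Oct.norm (⟨mq a b α t, 0⟩ : OctL E a b c) = t := by
  have h2 : (2 : E) ≠ 0 := NeZero.ne 2
  have hα := (alpha_ne H)
  have h := H.α2
  have h1 : Oct.norm (⟨mq a b α t, 0⟩ : OctL E a b c) = ((t + 1) / 2) ^ 2 -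
      algebraMap k E a * ((t - 1) / (2 * α)) ^ 2 := by
    change nrd (mq a b α t) - algebraMap k E c * nrd (0 : Qt (up E a) (up E b)) = _
    have e1 : nrd (mq a b α t : Qt (up E a) (up E b)) = ((t + 1) / 2) ^ 2 -
      algebraMap k E a * ((t - 1) / (2 * α)) ^ 2 := by
      change ((t + 1) / 2) ^ 2 - algebraMap k E a * ((t - 1) / (2 * α)) ^ 2 -
        algebraMap k E b * 0 ^ 2 + algebraMap k E a * algebraMap k E b * 0 ^ 2 = _
      ring
    have e2 : nrd (0 : Qt (up E a) (up E b)) = 0 := by simp [nrd]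
    rw [e1, e2, mul_zero, sub_zero]
  rw [h1, ← h]
  field_simp
  ring

/-- The semilinear map in terms of the octonion product. -/
theorem Jm_eq (x : OctL E a b c) : Jm ρ σ α q x =
    ((⟨mq a b α (algebraMap L E q), 0⟩ : OctL E a b c) * omap σ x) *
      (⟨mq a b α (algebraMap L E q * ρ (algebraMap L E q)), 0⟩ : OctL E a b c) := by
  ext1
  · simp [Jm, omap]
  · simp [Jm, omap, mul_assoc]

theorem omap_ep [NeZero (2 : E)] (H : Hy ρ σ ρL α a b c q) :
    omap σ (ep α : OctL E a b c) = 1 - ep α := by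
  have h2 : (2 : E) ≠ 0 := NeZero.ne 2
  have hs : σ (1 / (2 * α)) = 0 - 1 / (2 * α) := by
    rw [map_div₀, map_mul, H.σα, map_one, map_ofNat, mul_neg, div_neg, zero_sub]
  have hs2 : σ (1 / 2) = 1 - 1 / 2 := by
    rw [map_div₀, map_one, map_ofNat]
    field_simp
    ring
  have hs0 : σ 0 = 0 - 0 := by rw [map_zero, sub_zero]
  apply ext8
  · exact hs2
  · exact hs
  · exact hs0
  · exact hs0
  · exact hs0
  · exact hs0
  · exact hs0
  · exact hs0

theorem Jm_ep [NeZero (2 : E)] (H : Hy ρ σ ρL α a b c q) :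
    Jm ρ σ α q (ep α : OctL E a b c) = 1 - ep α := by
  have h2 : (2 : E) ≠ 0 := NeZero.ne 2
  have hα := (alpha_ne H)
  have hp : (ep α : OctL E a b c) * ep α = ep α := by
    have h := H.α2
    have e0 : ∀ x y z w : E, nrd (⟨x, y, z, w⟩ : Qt (up E a) (up E b)) = x ^ 2 -
        algebraMap k E a * y ^ 2 - algebraMap k E b * z ^ 2 +
          algebraMap k E a * algebraMap k E b * w ^ 2 := fun _ _ _ _ => rfl
    have e3 : nrd (0 : Qt (up E a) (up E b)) = 0 := by simp [nrd]
    have e1 : Oct.norm (ep α : OctL E a b c) = 0 := by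
      change nrd (⟨1 / 2, 1 / (2 * α), 0, 0⟩ : Qt (up E a) (up E b)) -
        algebraMap k E c * nrd (0 : Qt (up E a) (up E b)) = _
      rw [e0, e3, ← h]
      field_simp
      ring
    have e2 : bil (ep α : OctL E a b c) 1 = 1 := by
      have e4 : ep α + 1 = (⟨⟨1 / 2 + 1, 1 / (2 * α), 0, 0⟩, 0⟩ : OctL E a b c) := by
        apply ext8
        · rfl
        · exact add_zero _
        · exact add_zero _
        · exact add_zero _
        · exact add_zero _
        · exact add_zero _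
        · exact add_zero _
        · exact add_zero _
      rw [bil, e4, e1, Oct.norm_one]
      change nrd (⟨1 / 2 + 1, 1 / (2 * α), 0, 0⟩ : Qt (up E a) (up E b)) -
        algebraMap k E c * nrd (0 : Qt (up E a) (up E b)) - 0 - 1 = 1
      rw [e0, e3, ← h]
      field_simp
      ring
    rw [mul_self_eq, e1, e2, one_smul, zero_smul, sub_zero]
  rw [Jm_eq, omap_ep H, mq_oct _ hα, mq_oct _ hα]
  simp only [add_mul, mul_add, sub_mul, mul_sub, one_mul, mul_one, smul_mul_oct, mul_smul_oct, hp]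
  module

/-- Elements of the group which fix `e₊` fix `1`. -/
theorem gt_one [NeZero (2 : E)] (H : Hy ρ σ ρL α a b c q)
    {g : OctL E a b c ≃ₗ[E] OctL E a b c} (hg : g ∈ GT ρ σ α a b c q)
    (he : g (ep α) = ep α) : g 1 = 1 := by
  have h1 : g (1 - ep α) = 1 - ep α := by
    rw [← Jm_ep H, hg.2, he]
  have h2 : (1 : OctL E a b c) = (1 - ep α) + ep α := by abel
  conv_lhs => rw [h2, map_add, h1, he]
  exact h2.symm

theorem gt_omap [NeZero (2 : E)] (H : Hy ρ σ ρL α a b c q)
    {g : OctL E a b c ≃ₗ[E] OctL E a b c} (hg : g ∈ GT ρ σ α a b c q)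
    (he : g (ep α) = ep α) (x : OctL E a b c) :
    g (omap ρ x) = omap ρ (g x) ∧ g (star x) = star (g x) := by
  have h1 := gt_one H hg he
  have hA : ∀ x, g (omap ρ (star x)) = omap ρ (star (g x)) := by
    intro x
    have h2 := hg.1 x 1
    rwa [tri, tri, h1, star_one, omap_one, omap_one, mul_one, mul_one] at h2
  have h3 : ∀ x : OctL E a b c, omap ρ (omap ρ (omap ρ x)) = x := Orb.omap_cube H.ρ3
  have hs : ∀ x, g (star x) = star (g x) := by
    intro x
    have h2 : ∀ x : OctL E a b c, omap ρ (star (omap ρ (star (omap ρ (star x))))) = star x := by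
      intro x
      simp only [omap_star, star_star, h3]
    rw [← h2, hA, hA, hA, h2]
  refine ⟨?_, hs x⟩
  have h4 := hA (star x)
  rwa [star_star, hs, star_star] at h4

theorem gt_mul [NeZero (2 : E)] (H : Hy ρ σ ρL α a b c q)
    {g : OctL E a b c ≃ₗ[E] OctL E a b c} (hg : g ∈ GT ρ σ α a b c q)
    (he : g (ep α) = ep α) (x y : OctL E a b c) : g (x * y) = g x * g y := by
  have h3 : ∀ x : OctL E a b c, omap ρ (omap ρ (omap ρ x)) = x := Orb.omap_cube H.ρ3
  have h1 := hg.1 (star (omap ρ (omap ρ x))) (star (omap ρ y))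
  rw [tri, tri, star_star, star_star, h3, h3, (gt_omap H hg he _).2, (gt_omap H hg he _).2,
    star_star, star_star, (gt_omap H hg he _).1, (gt_omap H hg he _).1, (gt_omap H hg he _).1, h3,
    h3] at h1
  exact h1

theorem gt_sigma [NeZero (2 : E)] (H : Hy ρ σ ρL α a b c q)
    {g : OctL E a b c ≃ₗ[E] OctL E a b c} (hg : g ∈ GT ρ σ α a b c q)
    (he : g (ep α) = ep α) (x : OctL E a b c) : g (omap σ x) = omap σ (g x) := by
  have hα := (alpha_ne H)
  have hm : ∀ t : E, g (⟨mq a b α t, 0⟩ : OctL E a b c) = ⟨mq a b α t, 0⟩ := by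
    intro t
    rw [mq_oct t hα, map_add, map_smul, map_sub, gt_one H hg he, he]
  have h1 := hg.2 x
  rw [Jm_eq, Jm_eq, gt_mul H hg he, gt_mul H hg he, hm, hm] at h1
  have hq : algebraMap L E (q : L) ≠ 0 := fun h =>
    q.ne_zero ((map_eq_zero_iff _ (algebraMap L E).injective).1 h)
  have hq' : algebraMap L E (q : L) * ρ (algebraMap L E (q : L)) ≠ 0 :=
    mul_ne_zero hq ((map_ne_zero_iff ρ ρ.injective).2 hq)
  have h2 : ∀ (m u v : OctL E a b c), Oct.norm m ≠ 0 → u * m = v * m → u = v := by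
    intro m u v hm' huv
    have h3 := congrArg (fun z => z * star m) huv
    simp only [mul_mul_star] at h3
    exact smul_right_injective _ hm' h3
  have h2' : ∀ (m u v : OctL E a b c), Oct.norm m ≠ 0 → m * u = m * v → u = v := by
    intro m u v hm' huv
    have h3 := congrArg (fun z => star m * z) huv
    simp only [star_mul_mul] at h3
    exact smul_right_injective _ hm' h3
  have h4 := h2 _ _ _ (by rw [norm_mq H]; exact hq') h1
  exact h2' _ _ _ (by rw [norm_mq H]; exact hq) h4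

theorem exists_oup [NeZero (2 : E)] (H : Hy ρ σ ρL α a b c q) {x : OctL E a b c}
    (hσ : omap σ x = x) (hρ : omap ρ x = x) : ∃ y : Oct a b c, oup E y = x := by
  have h : ∀ t : E, σ t = t → ρ t = t → ∃ s : k, algebraMap k E s = t := fun t h1 h2 =>
    fixE H h1 h2
  obtain ⟨y1, h1⟩ := h x.fst.re (congrArg (fun z : OctL E a b c => z.fst.re) hσ)
    (congrArg (fun z : OctL E a b c => z.fst.re) hρ)
  obtain ⟨y2, h2⟩ := h x.fst.imI (congrArg (fun z : OctL E a b c => z.fst.imI) hσ)
    (congrArg (fun z : OctL E a b c => z.fst.imI) hρ)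
  obtain ⟨y3, h3⟩ := h x.fst.imJ (congrArg (fun z : OctL E a b c => z.fst.imJ) hσ)
    (congrArg (fun z : OctL E a b c => z.fst.imJ) hρ)
  obtain ⟨y4, h4⟩ := h x.fst.imK (congrArg (fun z : OctL E a b c => z.fst.imK) hσ)
    (congrArg (fun z : OctL E a b c => z.fst.imK) hρ)
  obtain ⟨y5, h5⟩ := h x.snd.re (congrArg (fun z : OctL E a b c => z.snd.re) hσ)
    (congrArg (fun z : OctL E a b c => z.snd.re) hρ)
  obtain ⟨y6, h6⟩ := h x.snd.imI (congrArg (fun z : OctL E a b c => z.snd.imI) hσ)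
    (congrArg (fun z : OctL E a b c => z.snd.imI) hρ)
  obtain ⟨y7, h7⟩ := h x.snd.imJ (congrArg (fun z : OctL E a b c => z.snd.imJ) hσ)
    (congrArg (fun z : OctL E a b c => z.snd.imJ) hρ)
  obtain ⟨y8, h8⟩ := h x.snd.imK (congrArg (fun z : OctL E a b c => z.snd.imK) hσ)
    (congrArg (fun z : OctL E a b c => z.snd.imK) hρ)
  exact ⟨⟨⟨y1, y2, y3, y4⟩, ⟨y5, y6, y7, y8⟩⟩, ext8 h1 h2 h3 h4 h5 h6 h7 h8⟩

/-- **The elements of the group which fix `e₊` come from automorphisms which fix `i`.** -/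
theorem exists_autI [NeZero (2 : E)] (H : Hy ρ σ ρL α a b c q)
    {g : OctL E a b c ≃ₗ[E] OctL E a b c} (hg : g ∈ GT ρ σ α a b c q)
    (he : g (ep α) = ep α) :
    ∃ f : AutC a b c, f.1 gi = gi ∧ ∀ x : Oct a b c, g (oup E x) = oup E (f.1 x) := by
  have hα := (alpha_ne H)
  have h2 : (2 : E) ≠ 0 := NeZero.ne 2
  have hgi : g⁻¹ ∈ GT ρ σ α a b c q := inv_mem hg
  have hei : g⁻¹ (ep α) = ep α := by
    apply g.injective
    rw [← LinearEquiv.mul_apply, mul_inv_cancel, he]
    rfl
  have h1 : ∀ x : Oct a b c, ∃ y : Oct a b c, oup E y = g (oup E x) := fun x =>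
    exists_oup H (by rw [← gt_sigma H hg he, omap_oup]) (by rw [← (gt_omap H hg he _).1, omap_oup])
  have h1' : ∀ x : Oct a b c, ∃ y : Oct a b c, oup E y = g⁻¹ (oup E x) := fun x =>
    exists_oup H (by rw [← gt_sigma H hgi hei, omap_oup])
      (by rw [← (gt_omap H hgi hei _).1, omap_oup])
  choose f hf using h1
  choose f' hf' using h1'
  have hadd : ∀ x y, f (x + y) = f x + f y := by
    intro x y
    apply Alb.oup_injective (K := E)
    rw [hf, oup_add, oup_add, map_add, hf, hf]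
  have hsmul : ∀ (t : k) (x), f (t • x) = t • f x := by
    intro t x
    apply Alb.oup_injective (K := E)
    rw [hf, oup_smul, oup_smul, map_smul, hf]
  have hl : ∀ x, f' (f x) = x := by
    intro x
    apply Alb.oup_injective (K := E)
    rw [hf', hf, ← LinearEquiv.mul_apply, inv_mul_cancel]
    rfl
  have hr : ∀ x, f (f' x) = x := by
    intro x
    apply Alb.oup_injective (K := E)
    rw [hf, hf', ← LinearEquiv.mul_apply, mul_inv_cancel]
    rfl
  refine ⟨⟨{ toFun := f, invFun := f', left_inv := hl, right_inv := hr, map_add' := hadd,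
             map_smul' := hsmul }, fun x y => ?_⟩, ?_, fun x => (hf x).symm⟩
  · apply Alb.oup_injective (K := E)
    change oup E (f (x * y)) = oup E (f x * f y)
    rw [hf, oup_mul, oup_mul, gt_mul H hg he, hf, hf]
  · apply Alb.oup_injective (K := E)
    change oup E (f gi) = _
    have h3 : (oup E (gi : Oct a b c) : OctL E a b c) = (2 * α) • ep α - α • 1 := by
      rw [oup_gi]
      apply ext8
      · change (0 : E) = (2 * α) * (1 / 2) - α * 1
        field_simp
        ring
      · change (1 : E) = (2 * α) * (1 / (2 * α)) - α * 0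
        field_simp
        ring
      · change (0 : E) = (2 * α) * 0 - α * 0
        ring
      · change (0 : E) = (2 * α) * 0 - α * 0
        ring
      · change (0 : E) = (2 * α) * 0 - α * 0
        ring
      · change (0 : E) = (2 * α) * 0 - α * 0
        ring
      · change (0 : E) = (2 * α) * 0 - α * 0
        ring
      · change (0 : E) = (2 * α) * 0 - α * 0
        ring
    rw [hf, h3, map_sub, map_smul, map_smul, he, gt_one H hg he]

/-- The automorphisms which fix `i` give elements of the group which fix `e₊`. -/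
theorem autI_mem_GT [NeZero (2 : E)] (H : Hy ρ σ ρL α a b c q) (f : AutC a b c)
    (hf : f.1 gi = gi) : H24.extE E f.1 ∈ GT ρ σ α a b c q ∧
      H24.extE E f.1 (ep α) = ep α := by
  have hα := alpha_ne H
  have h2 : (2 : E) ≠ 0 := NeZero.ne 2
  have hep : (ep α : OctL E a b c) = (1 / (2 * α)) • gi + (1 / 2 : E) • 1 := by
    apply ext8
    · change (1 / 2 : E) = (1 / (2 * α)) * 0 + 1 / 2 * 1
      ring
    · change 1 / (2 * α) = (1 / (2 * α)) * 1 + 1 / 2 * 0
      ring
    · change (0 : E) = (1 / (2 * α)) * 0 + 1 / 2 * 0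
      ring
    · change (0 : E) = (1 / (2 * α)) * 0 + 1 / 2 * 0
      ring
    · change (0 : E) = (1 / (2 * α)) * 0 + 1 / 2 * 0
      ring
    · change (0 : E) = (1 / (2 * α)) * 0 + 1 / 2 * 0
      ring
    · change (0 : E) = (1 / (2 * α)) * 0 + 1 / 2 * 0
      ring
    · change (0 : E) = (1 / (2 * α)) * 0 + 1 / 2 * 0
      ring
  have hfo : ∀ x, H24.extE E f.1 (oup E x) = oup E (f.1 x) := H24.extE_oup f.1
  have h1 : H24.extE E f.1 (1 : OctL E a b c) = 1 := by
    rw [← oup_one, hfo, aut_one]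
  have hg : H24.extE E f.1 (gi : OctL E a b c) = gi := by
    rw [← oup_gi, hfo, hf]
  have he : H24.extE E f.1 (ep α : OctL E a b c) = ep α := by
    rw [hep, map_add, map_smul, map_smul, h1, hg]
  refine ⟨⟨fun x y => H24.tri_extL ρ f.2 (aut_star f) x y, fun x => ?_⟩, he⟩
  have hm : ∀ t : E, H24.extE E f.1 (⟨mq a b α t, 0⟩ : OctL E a b c) = ⟨mq a b α t, 0⟩ := by
    intro t
    rw [mq_oct t hα, map_add, map_smul, map_sub, h1, he]
  have hmul : ∀ x y : OctL E a b c, H24.extE E f.1 (x * y) =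
      H24.extE E f.1 x * H24.extE E f.1 y := fun x y => H24.extL_mul f.2 x y
  have ho : ∀ x : OctL E a b c, H24.extE E f.1 (omap σ x) = omap σ (H24.extE E f.1 x) :=
    fun x => (H24.omap_extL σ _ x).symm
  rw [Jm_eq, Jm_eq, hmul, hmul, hm, hm, ho]

/-- A multiplicative linear map and the embeddings. -/
theorem map_emb {F : Type} [Field F] {a b c a' b' c' : Fˣ} {g : Oct a b c ≃ₗ[F] Oct a b c}
    (hg : ∀ x y, g (x * y) = g x * g y) (i j l : Oct a b c) (x : Oct a' b' c') :
    g (emb i j l x) = emb (g i) (g j) (g l) x := by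
  simp only [emb, qemb, map_add, map_smul, hg, hom_one hg]

theorem emb_neg_l {F : Type} [Field F] {a b c a' b' c' : Fˣ} (i j l : Oct a b c)
    (x : Oct a' b' c') : emb i j (-l) x = emb i j l (⟨x.fst, -x.snd⟩ : Oct a' b' c') := by
  have h : qemb i j (-x.snd) = -qemb i j x.snd := by
    rw [← neg_one_smul F x.snd, qemb_smul, neg_one_smul]
  rw [emb, emb, h, mul_neg, neg_mul]

/-- The involutions of the octonion algebra which fix `i`. -/
theorem invol_trip [NeZero (2 : k)] (hdiv : Division a b c) {f : AutC a b c} (hf : f ≠ 1)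
    (hf2 : f * f = 1) (hi : f.1 gi = gi) : ∃ (b' c' : kˣ) (j l : Oct a b c),
      Trip a b' c' gi j l ∧ f.1 j = j ∧ f.1 l = -l := by
  have h2 : (2 : k) ≠ 0 := NeZero.ne 2
  have hff : ∀ x, f.1 (f.1 x) = x := by
    intro x
    have h := congrArg (fun g : AutC a b c => g.1 x) hf2
    exact h
  have h1 : f.1 1 = 1 := aut_one f
  have hgi0 : (gi : Oct a b c) ≠ 0 := by
    intro h
    have h3 := congrArg (fun x : Oct a b c => x.fst.imI) h
    exact one_ne_zero h3
  have hs := trip_std (a := a) (b := b) (c := c)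
  have hpj : dot (gj : Oct a b c) 1 = 0 := by simp [dot, gj]
  have hpl : dot (gl : Oct a b c) 1 = 0 := by simp [dot, gl]
  have hpi : dot (gi : Oct a b c) 1 = 0 := by simp [dot, gi]
  have hij : dot (gi : Oct a b c) gj = 0 := hs.ij
  have hil : dot (gi : Oct a b c) gl = 0 := hs.il
  -- the vectors orthogonal to `1` and `i`
  have hfp : ∀ x : Oct a b c, dot x 1 = 0 → dot gi x = 0 → dot (f.1 x) 1 = 0 ∧
      dot gi (f.1 x) = 0 := by
    intro x hx hx'
    refine ⟨?_, ?_⟩
    · rw [← h1, aut_dot, hx]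
    · rw [← hi, aut_dot, hx']
  have hstar : ∀ x : Oct a b c, dot x 1 = 0 → star x = -x := by
    intro x hx
    apply star_neg_of_pure
    rw [bil_eq_dot, hx, mul_zero]
  -- the vector `l`
  obtain ⟨l, hl0, hl1, hl2, hl3⟩ : ∃ l : Oct a b c, l ≠ 0 ∧ dot l 1 = 0 ∧ dot gi l = 0 ∧
      f.1 l = -l := by
    have key : ∀ x : Oct a b c, dot x 1 = 0 → dot gi x = 0 → f.1 x ≠ x →
        ∃ l : Oct a b c, l ≠ 0 ∧ dot l 1 = 0 ∧ dot gi l = 0 ∧ f.1 l = -l := by
      intro x hx hx' hne
      obtain ⟨e1, e2⟩ := hfp x hx hx'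
      refine ⟨x - f.1 x, sub_ne_zero.2 (Ne.symm hne), ?_, ?_, ?_⟩
      · rw [dot_sub_left, hx, e1, sub_zero]
      · rw [dot_sub_right, hx', e2, sub_zero]
      · rw [map_sub, hff]
        abel
    by_cases hj : f.1 gj = gj
    · by_cases hl : f.1 gl = gl
      · exact absurd (aut_ext (h := 1) (by rw [hi]; rfl) (by rw [hj]; rfl) (by rw [hl]; rfl)) hf
      · exact key gl hpl hil hl
    · exact key gj hpj hij hj
  -- the vector `j`
  obtain ⟨j, hj0, hj1, hj2, hj3⟩ : ∃ j : Oct a b c, j ≠ 0 ∧ dot j 1 = 0 ∧ dot gi j = 0 ∧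
      f.1 j = j := by
    have key : ∀ x : Oct a b c, dot x 1 = 0 → dot gi x = 0 → x + f.1 x ≠ 0 →
        ∃ l : Oct a b c, l ≠ 0 ∧ dot l 1 = 0 ∧ dot gi l = 0 ∧ f.1 l = l := by
      intro x hx hx' hne
      obtain ⟨e1, e2⟩ := hfp x hx hx'
      refine ⟨x + f.1 x, hne, ?_, ?_, ?_⟩
      · rw [dot_add_left, hx, e1, add_zero]
      · rw [dot_add_right, hx', e2, add_zero]
      · rw [map_add, hff]
        abel
    by_cases hj : gj + f.1 gj = 0
    · by_cases hl : gl + f.1 gl = 0
      · refine ⟨gj * gl, ?_, ?_, ?_, ?_⟩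
        · intro h
          have h3 := congrArg (fun x : Oct a b c => x.snd.imJ) h
          simp [gj, gl] at h3
        · simp [dot, gj, gl]
        · simp [dot, gi, gj, gl]
        · rw [f.2, eq_neg_of_add_eq_zero_right hj, eq_neg_of_add_eq_zero_right hl, neg_mul_neg]
      · exact key gl hpl hil hl
    · exact key gj hpj hij hj
  have heig : ∀ x y : Oct a b c, f.1 x = x → f.1 y = -y → dot x y = 0 := by
    intro x y hx hy
    have h3 := aut_dot f x y
    rw [hx, hy, dot_neg_right] at h3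
    have h4 : 2 * dot x y = 0 := by linear_combination -h3
    exact (mul_eq_zero.1 h4).resolve_left h2
  refine ⟨Units.mk0 (-Oct.norm j) (neg_ne_zero.2 fun h => hj0 (hdiv j h)),
    Units.mk0 (-Oct.norm l) (neg_ne_zero.2 fun h => hl0 (hdiv l h)), j, l,
    ⟨hs.si, hstar j hj1, hstar l hl1, hs.ii, norm_eq_of_sq (hstar j hj1),
      norm_eq_of_sq (hstar l hl1), hj2, hl2, heig j l hj3 hl3, heig _ l ?_ hl3⟩, hj3, hl3⟩
  rw [f.2, hi, hj3]

end gt

end TQ

variable {k L E : Type} [Field k] [Field L] [Field E] [Algebra k L] [Algebra k E] [Algebra L E]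
  [IsScalarTower k L E] [NeZero (2 : k)] [NeZero (2 : E)] {ρ σ : E ≃ₐ[k] E} {ρL : L ≃ₐ[k] L}
  {α : E} {a b c : kˣ} {q : Lˣ} (H : Hy ρ σ ρL α a b c q)

include H

/-- R: the involutions of `GT` which fix `e₊`. -/
theorem exists_tQ {t : OctL E a b c ≃ₗ[E] OctL E a b c} (ht : t ∈ GT ρ σ α a b c q)
    (h1 : t ≠ 1) (h2 : t * t = 1) (he : t (ep α) = ep α) :
    ∃ (b' c' : kˣ) (j l : Oct a b c) (h : Trip a b' c' gi j l), t = tQ E h := by
  obtain ⟨f, hfi, hf⟩ := TQ.exists_autI H ht he
  have hf1 : f ≠ 1 := by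
    intro h
    apply h1
    apply H24.equiv_unique
    intro x
    rw [hf, h]
    rfl
  have hf2 : f * f = 1 := by
    apply Subtype.ext
    apply LinearEquiv.ext
    intro x
    apply Alb.oup_injective (K := E)
    change oup E (f.1 (f.1 x)) = oup E x
    rw [← hf, ← hf, ← LinearEquiv.mul_apply, h2]
    rfl
  obtain ⟨b', c', j, l, h, hj, hl⟩ := TQ.invol_trip H.hdiv hf1 hf2 hfi
  refine ⟨b', c', j, l, h, ?_⟩
  have key : ∀ y : OctL E a b' c', t (tripO E h y) = tripO E h (t0 E a b' c' y) := by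
    intro y
    rw [tripO_apply, TQ.map_emb (TQ.gt_mul H ht he), hf, hf, hf, hfi, hj, hl, oup_neg,
      TQ.emb_neg_l, tripO_apply]
    rfl
  apply LinearEquiv.ext
  intro x
  obtain ⟨y, rfl⟩ := (tripO E h).surjective x
  rw [key]
  change _ = tripO E h (t0 E a b' c' ((tripO E h).symm (tripO E h y)))
  rw [LinearEquiv.symm_apply_apply]

end Vale.Agent.P011.D4X
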