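import Vale.Agent.P011.D4X.H64.F4

/-!
Block D4X: a good parameter `D = u² - 4 s`, so that `s` is the norm of `(u + √D) / 2`.
-/

open NumberField IsDedekindDomain Topology Filter

namespace Vale.Agent.P011.D4X

open Vale.Agent.P011.Arith Vale.Agent.P011.D4 Vale.Agent.P011.MPQ

namespace MixD

section loc

variable {F : Type} [Field F] [NumberField F]

/-- There is a nontrivial local square class whose norm group contains `s`. -/
theorem exists_g (v : HeightOneSpectrum (𝓞 F)) (s : Fˣ) :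
    ∃ g : Fˣ, g ∉ LS (v.valuation F) ∧ s ∈ NF g ⊔ LS (v.valuation F) := by
  obtain ⟨u0, -, hu0⟩ := exists_unit_class v
  by_cases hs : s ∈ LS (v.valuation F)
  · exact ⟨u0, hu0, Subgroup.mem_sup_right hs⟩
  obtain ⟨g1, hg1, hg2⟩ := exists_class v u0
  have hi := local_index_two v s hs
  have key : ∃ g : Fˣ, g ∉ LS (v.valuation F) ∧ g ∈ NF s ⊔ LS (v.valuation F) := by
    by_cases h0 : u0 ∈ NF s ⊔ LS (v.valuation F)
    · exact ⟨u0, hu0, h0⟩
    · by_cases h1 : g1 ∈ NF s ⊔ LS (v.valuation F)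
      · exact ⟨g1, hg1, h1⟩
      · refine ⟨g1 * u0, hg2, ?_⟩
        rw [Subgroup.mul_mem_iff_of_index_two hi]
        exact ⟨fun h => absurd h h1, fun h => absurd h h0⟩
  obtain ⟨g, hg, hgs⟩ := key
  exact ⟨g, hg, mem_symm s g hgs⟩

/-- The local parameter. -/
theorem loc_u (v : HeightOneSpectrum (𝓞 F)) (s : Fˣ) :
    ∃ (u : F) (D : Fˣ), (D : F) = u ^ 2 - 4 * s ∧ D ∉ LS (v.valuation F) := by
  obtain ⟨g, hg, hs⟩ := exists_g v s
  have h2 : (2 : F) ≠ 0 := two_ne_zero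
  obtain ⟨n, hn, l, hl, hnl⟩ := Subgroup.mem_sup.1 hs
  have hg1 : (1 - g : F) ≠ 0 := by
    intro h
    apply hg
    have h1 : g = 1 := Units.ext (by rw [Units.val_one]; linear_combination -h)
    rw [h1]
    exact one_mem _
  -- a norm with nonzero second coordinate
  obtain ⟨x, y, hy, hxy⟩ : ∃ x y : F, y ≠ 0 ∧ (n : F) = x ^ 2 - g * y ^ 2 := by
    obtain ⟨x, y, hxy⟩ := hn
    by_cases hy : y = 0
    · have hx : x ≠ 0 := by
        rintro rfl
        rw [hy] at hxy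
        apply n.ne_zero
        rw [hxy]
        ring
      refine ⟨x * (1 + g) / (1 - g), 2 * x / (1 - g), ?_, ?_⟩
      · exact div_ne_zero (mul_ne_zero h2 hx) hg1
      · rw [hxy, hy]
        field_simp
        ring
    · exact ⟨x, y, hy, hxy⟩
  set w := v.valuation F with hw
  have hn0 : (n : F) ≠ 0 := n.ne_zero
  have hg0 : (g : F) ≠ 0 := g.ne_zero
  obtain ⟨t, ht⟩ := LS_newton' hl (γ := w (4 * g * y ^ 2 / n)) (by
    rw [Valuation.ne_zero_iff]
    exact div_ne_zero (mul_ne_zero (mul_ne_zero (by norm_num) hg0) (pow_ne_zero 2 hy)) hn0)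
  have ht0 : (t : F) ≠ 0 := t.ne_zero
  have hs' : (s : F) = n * l := by rw [← hnl, Units.val_mul]
  have hC0 : (4 * g * y ^ 2 * t ^ 2 : F) ≠ 0 :=
    mul_ne_zero (mul_ne_zero (mul_ne_zero (by norm_num) hg0) (pow_ne_zero 2 hy))
      (pow_ne_zero 2 ht0)
  have hrel : ((2 * x * t) ^ 2 - 4 * s) / (4 * g * y ^ 2 * t ^ 2) - 1 =
      -(4 * n / (4 * g * y ^ 2) * ((l : F) / t ^ 2 - 1)) := by
    rw [hs']
    field_simp
    rw [hxy]
    ring
  have hlt : w (((2 * x * t) ^ 2 - 4 * s) / (4 * g * y ^ 2 * t ^ 2) - 1) < w 4 := by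
    rw [hrel, Valuation.map_neg, map_mul]
    have h4 : w (4 * (n : F) / (4 * g * y ^ 2)) ≠ 0 := by
      rw [Valuation.ne_zero_iff]
      exact div_ne_zero (mul_ne_zero (by norm_num) hn0)
        (mul_ne_zero (mul_ne_zero (by norm_num) hg0) (pow_ne_zero 2 hy))
    have h5 := mul_lt_mul_of_pos_left ht (zero_lt_iff.mpr h4)
    have e : w (4 * (n : F) / (4 * g * y ^ 2)) * w (4 * g * y ^ 2 / n) = w 4 := by
      rw [← map_mul]
      congr 1
      field_simp
    rw [e] at h5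
    exact h5
  have hD0 : (2 * x * t) ^ 2 - 4 * (s : F) ≠ 0 := by
    intro h
    rw [h, zero_div, zero_sub, Valuation.map_neg, map_one] at hlt
    exact absurd (val_four_le w) (not_le.mpr hlt)
  refine ⟨2 * x * t, Units.mk0 _ hD0, Units.val_mk0 _, fun hD => hg ?_⟩
  have h1 : Units.mk0 _ hD0 / Units.mk0 _ hC0 ∈ LS w := by
    apply LS_of_close
    rw [Units.val_div_eq_div_val, Units.val_mk0, Units.val_mk0]
    exact hlt
  have h3 : Units.mk0 _ hC0 ∈ LS w := by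
    have h4 := mul_mem (inv_mem h1) hD
    rwa [inv_div, div_mul_cancel] at h4
  have hyt : (2 * y * t : F) ≠ 0 := mul_ne_zero (mul_ne_zero h2 hy) ht0
  have h5 := mul_mem h3 (inv_mem (sq_mem_LS (w := w) (Units.mk0 _ hyt)))
  have e : Units.mk0 _ hC0 * (Units.mk0 _ hyt ^ 2)⁻¹ = g := by
    apply Units.ext
    rw [Units.val_mul, Units.val_inv_eq_inv_val, Units.val_pow_eq_pow_val, Units.val_mk0,
      Units.val_mk0]
    field_simp
    ring
  rwa [e] at h5

/-- The parameter at a place where `D` should be a square. -/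
theorem loc_u' (v : HeightOneSpectrum (𝓞 F)) (s : Fˣ) :
    ∃ (u : F) (D : Fˣ), (D : F) = u ^ 2 - 4 * s ∧ D ∈ LS (v.valuation F) := by
  have h2 : (2 : F) ≠ 0 := two_ne_zero
  have hs0 : (s : F) ≠ 0 := s.ne_zero
  by_cases h1 : (1 - s : F) = 0
  · have h3 : (s : F) = 1 := by linear_combination -h1
    refine ⟨5 / 2, Units.mk0 (9 / 4) (by norm_num), ?_, ?_⟩
    · rw [Units.val_mk0, h3]
      norm_num
    · have h4 := sq_mem_LS (w := v.valuation F) (Units.mk0 (3 / 2 : F) (by norm_num))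
      have e : Units.mk0 (3 / 2 : F) (by norm_num) ^ 2 = Units.mk0 (9 / 4 : F) (by norm_num) := by
        apply Units.ext
        rw [Units.val_pow_eq_pow_val, Units.val_mk0, Units.val_mk0]
        norm_num
      rwa [e] at h4
  · refine ⟨1 + s, Units.mk0 (1 - s : F) h1 ^ 2, ?_, sq_mem_LS _⟩
    rw [Units.val_pow_eq_pow_val, Units.val_mk0]
    ring

/-- The parameter at a real place. -/
theorem real_u (φ : F →+* ℝ) (s : Fˣ) (hs : 0 < φ s) :
    ∃ (u : F) (D : Fˣ), (D : F) = u ^ 2 - 4 * s ∧ φ D < 0 := by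
  refine ⟨0, Units.mk0 (0 ^ 2 - 4 * (s : F)) ?_, Units.val_mk0 _, ?_⟩
  · intro h
    have h1 : (s : F) = 0 := by linear_combination -(1 / 4 : F) * h
    exact s.ne_zero h1
  · rw [Units.val_mk0, map_sub, map_mul, map_ofNat, map_pow, map_zero]
    nlinarith

theorem real_u' (φ : F →+* ℝ) (s : Fˣ) :
    ∃ (u : F) (D : Fˣ), (D : F) = u ^ 2 - 4 * s ∧ 0 < φ D := by
  obtain ⟨n, hn⟩ := exists_nat_gt (4 * φ s)
  have h1 : 0 < φ (((n : F) + 1) ^ 2 - 4 * s) := by
    rw [map_sub, map_mul, map_ofNat, map_pow, map_add, map_natCast, map_one]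
    have : (0 : ℝ) ≤ n := Nat.cast_nonneg n
    nlinarith
  refine ⟨(n : F) + 1, Units.mk0 _ (fun h => ?_), Units.val_mk0 _, by rw [Units.val_mk0]; exact h1⟩
  rw [h, map_zero] at h1
  exact lt_irrefl _ h1

/-- Closeness of the discriminants. -/
theorem near_D (p : Pl F) (u : F) (s D : Fˣ) (hD : (D : F) = u ^ 2 - 4 * s) :
    ∃ δ : ℝ, 0 < δ ∧ ∀ x : F, plAbv p (x - u) < δ → ∀ D' : F, D' = x ^ 2 - 4 * s →
      D' ≠ 0 ∧ ∀ hD' : D' ≠ 0, Units.mk0 D' hD' * D ∈ LSp p := by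
  obtain ⟨δ, hδ, h⟩ := LSp_of_near p D
  have hD1 : 0 < plAbv p (D : F) := (plAbv p).pos D.ne_zero
  obtain ⟨ε, hε⟩ : ∃ ε, ε = min δ (plAbv p (D : F)) := ⟨_, rfl⟩
  have hε0 : 0 < ε := by rw [hε]; exact lt_min hδ hD1
  have hu : 0 ≤ plAbv p (2 * u) := (plAbv p).nonneg _
  refine ⟨min 1 (ε / (1 + plAbv p (2 * u))), lt_min one_pos (by positivity), fun x hx D' hx' => ?_⟩
  have h1 : plAbv p (x - u) < 1 := hx.trans_le (min_le_left _ _)
  have h2 : plAbv p (x - u) < ε / (1 + plAbv p (2 * u)) := hx.trans_le (min_le_right _ _)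
  have h0 : 0 ≤ plAbv p (x - u) := (plAbv p).nonneg _
  rw [lt_div_iff₀ (by positivity)] at h2
  have h3 : plAbv p (D' - D) < ε := by
    have e : D' - D = (x - u) * ((x - u) + 2 * u) := by
      rw [hx', hD]
      ring
    rw [e, map_mul]
    have h4 := (plAbv p).add_le (x - u) (2 * u)
    nlinarith
  have h4 : D' ≠ 0 := by
    rintro rfl
    have h5 := h3.trans_le (by rw [hε]; exact min_le_right _ _ : ε ≤ plAbv p (D : F))
    rw [zero_sub, (plAbv p).map_neg] at h5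
    exact lt_irrefl _ h5
  exact ⟨h4, fun hD' => h _ (by rw [Units.val_mk0]; exact h3.trans_le (by rw [hε]; exact min_le_left _ _))⟩

end loc

end MixD

section main

variable {k L : Type} [Field k] [NumberField k] [Field L] [NumberField L] [Algebra k L]

theorem exists_mixD (h3 : Module.finrank k L = 3) {ρL : L ≃ₐ[k] L} (hρ : ρL ≠ 1) {a b : kˣ}
    {q : Lˣ} (hb : Aniso a b) {s : kˣ} (hs : ∀ τ : k →+* ℝ, τ a < 0 → 0 < τ s) :
    ∃ (u : k) (D : kˣ), (D : k) = u ^ 2 - 4 * s ∧ GoodD a b q (D : k) ∧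
      (∀ τ : k →+* ℝ, τ D < 0 ↔ τ a < 0) ∧ ¬ IsSquare (D : k) ∧
      ¬ IsSquare ((a * D : kˣ) : k) := by
  have hr3 : ∀ x, ρL (ρL (ρL x)) = x := E6I.rho3 h3 hρ
  have hfix : ∀ x, ρL x = x → ∃ t : k, algebraMap k L t = x := fun x hx => E6I.rho_fix h3 hρ hx
  have haS : ¬ IsSquare (a : k) := by
    rintro ⟨r, hr⟩
    have h1 := hb ⟨r, 1, 0, 0⟩ (by
      simp only [nrd]
      rw [hr]
      ring)
    have h2 := congrArg QuaternionAlgebra.imI h1
    exact one_ne_zero (α := k) h2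
  obtain ⟨v0, -, -⟩ := exists_nonsplit a haS ∅ Set.finite_empty
  choose below hbelow using fun w : HeightOneSpectrum (𝓞 L) => Sch.exists_below (F := k) w
  obtain ⟨R, hR⟩ : ∃ R : Set (HeightOneSpectrum (𝓞 L)), R = {w | Ram (up L a) q w} ∪
    {w | Ram (up L a) (q * up L b) w} := ⟨_, rfl⟩
  have hRf : R.Finite := by
    rw [hR]
    exact (ram_finite _ _).union (ram_finite _ _)
  obtain ⟨S, hS⟩ : ∃ S : Set (HeightOneSpectrum (𝓞 k)), S = {v | Ram a b v} ∪
    below '' R ∪ {v0} := ⟨_, rfl⟩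
  have hSf : S.Finite := by
    rw [hS]
    exact ((ram_finite _ _).union (hRf.image _)).union (Set.finite_singleton _)
  have hSv0 : v0 ∈ S := by
    rw [hS]
    exact Or.inr rfl
  have hSb : ∀ v, Ram a b v → v ∈ S := fun v hv => by
    rw [hS]
    exact Or.inl (Or.inl hv)
  have hSR : ∀ w ∈ R, below w ∈ S := fun w hw => by
    rw [hS]
    exact Or.inl (Or.inr ⟨w, hw, rfl⟩)
  obtain ⟨v1, hv1S, hv1⟩ := exists_nonsplit a haS S hSf
  have hgood : ∀ D : kˣ, (∀ v ∈ S, D ∉ LS (v.valuation k)) → (∀ τ : k →+* ℝ, τ D < 0 ↔ τ a < 0) →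
      GoodD a b q (D : k) := by
    intro D hD hs
    have h1 : ∀ w ∈ R, up L D ∉ LS (w.valuation L) := fun w hw h =>
      hD _ (hSR w hw) (LS_of_map hr3 hfix (hbelow w) h)
    exact goodD_of (fun v hv => hD v (hSb v hv)) (fun w hw => h1 w (by rw [hR]; exact Or.inl hw))
      (fun w hw => h1 w (by rw [hR]; exact Or.inr hw)) (fun τ h => (hs τ).mpr h)
      (fun τ h => (hs τ).mp h)
  -- the local targets
  have hloc : ∀ p : Pl k, ∃ (u : k) (D : kˣ), (D : k) = u ^ 2 - 4 * s ∧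
      (∀ v, p = Sum.inl v → (v ∈ S → D ∉ LS (v.valuation k)) ∧
        (v ∉ S → D ∈ LS (v.valuation k))) ∧
      (∀ τ, p = Sum.inr τ → (τ D < 0 ↔ τ a < 0)) := by
    rintro (v | τ)
    · by_cases hv : v ∈ S
      · obtain ⟨u, D, h1, h2⟩ := MixD.loc_u v s
        refine ⟨u, D, h1, fun v' hv' => ?_, fun τ hτ => by simp at hτ⟩
        obtain rfl := Sum.inl_injective hv'
        exact ⟨fun _ => h2, fun h => absurd hv h⟩
      · obtain ⟨u, D, h1, h2⟩ := MixD.loc_u' v s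
        refine ⟨u, D, h1, fun v' hv' => ?_, fun τ hτ => by simp at hτ⟩
        obtain rfl := Sum.inl_injective hv'
        exact ⟨fun h => absurd h hv, fun _ => h2⟩
    · by_cases ha : τ a < 0
      · obtain ⟨u, D, h1, h2⟩ := MixD.real_u τ s (hs τ ha)
        refine ⟨u, D, h1, fun v' hv' => by simp at hv', fun τ' hτ => ?_⟩
        obtain rfl := Sum.inr_injective hτ
        exact ⟨fun _ => ha, fun _ => h2⟩
      · obtain ⟨u, D, h1, h2⟩ := MixD.real_u' τ s
        refine ⟨u, D, h1, fun v' hv' => by simp at hv', fun τ' hτ => ?_⟩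
        obtain rfl := Sum.inr_injective hτ
        exact ⟨fun h => absurd h2 (not_lt.mpr h.le), fun h => absurd h ha⟩
  choose u0 D0 hu0 hfin hre using hloc
  choose δ hδ hnear using fun p : Pl k => MixD.near_D p (u0 p) s (D0 p) (hu0 p)
  have hTf : (SP (S ∪ {v1})).Finite := SP_finite (hSf.union (Set.finite_singleton _))
  obtain ⟨u, hu⟩ := approx (SP (S ∪ {v1})) hTf u0 δ hδ
  have hD0 : u ^ 2 - 4 * (s : k) ≠ 0 :=
    (hnear _ u (hu (Sum.inl v0) (inl_mem_SP.mpr (Or.inl hSv0))) _ rfl).1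
  obtain ⟨D, hD⟩ : ∃ D : kˣ, D = Units.mk0 _ hD0 := ⟨_, rfl⟩
  have hcl : ∀ p ∈ SP (S ∪ {v1}), D * D0 p ∈ LSp p := fun p hp => by
    rw [hD]
    exact (hnear _ u (hu p hp) _ rfl).2 hD0
  have hDS : ∀ v ∈ S, D ∉ LS (v.valuation k) := by
    intro v hv h
    have h1 : D * D0 (Sum.inl v) ∈ LS (v.valuation k) :=
      hcl (Sum.inl v) (inl_mem_SP.mpr (Or.inl hv))
    have h2 := mul_mem (inv_mem h) h1
    rw [inv_mul_cancel_left] at h2
    exact (hfin (Sum.inl v) v rfl).1 hv h2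
  have hD1 : D ∈ LS (v1.valuation k) := by
    have h1 : D * D0 (Sum.inl v1) ∈ LS (v1.valuation k) :=
      hcl (Sum.inl v1) (inl_mem_SP.mpr (Or.inr rfl))
    have h2 := mul_mem h1 (inv_mem ((hfin (Sum.inl v1) v1 rfl).2 hv1S))
    rwa [mul_inv_cancel_right] at h2
  have hDr : ∀ τ : k →+* ℝ, τ D < 0 ↔ τ a < 0 := by
    intro τ
    have h1 : 0 < τ ((D * D0 (Sum.inr τ) : kˣ) : k) := hcl (Sum.inr τ) inr_mem_SP
    rw [Units.val_mul, map_mul] at h1
    rw [← hre (Sum.inr τ) τ rfl]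
    rcases mul_pos_iff.mp h1 with ⟨h2, h4⟩ | ⟨h2, h4⟩
    · exact ⟨fun h => absurd h2 (not_lt.mpr h.le), fun h => absurd h4 (not_lt.mpr h.le)⟩
    · exact ⟨fun _ => h4, fun _ => h2⟩
  refine ⟨u, D, by rw [hD, Units.val_mk0], hgood D hDS hDr, hDr, fun h => ?_, fun h => ?_⟩
  · exact hDS v0 hSv0 (Sq_le_LS _ (mem_Sq_iff.mpr h))
  · have h1 : a * D ∈ LS (v1.valuation k) := Sq_le_LS _ (mem_Sq_iff.mpr h)
    have h2 := mul_mem h1 (inv_mem hD1)
    rw [mul_inv_cancel_right] at h2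
    exact hv1 h2

end main

end Vale.Agent.P011.D4X
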